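import Vale.Agent.Lib.P070.Interface
import Vale.Agent.Lib.P070.BasicA

/-!
# P070: the germ of an irreducible representation of a separable algebra

Needs only `PartE`.
-/

open Filter Topology

namespace P070

/-- Part B: every irreducible representation of a separable purely infinite algebra has, at every
unit vector, a rigid germ. -/
def PartB.{u} : Prop :=
  ∀ (A : Type) [CStarAlgebra A], Nontrivial A → (∀ y : A, y ≠ 0 → ∃ x, star (y * x) * (y * x) = 1) →
    (∃ s : A, star s * s = 1 ∧ s * star s ≠ 1) →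
    (∃ D : Set A, D.Countable ∧ Dense D) →
    ∀ (K : Type u) [NormedAddCommGroup K] [InnerProductSpace ℂ K]
    [CompleteSpace K] (π : A →⋆ₐ[ℂ] (K →L[ℂ] K)), Irr π → ∀ ξ : K, ‖ξ‖ = 1 →
    ∃ g : Germ A, Rigid ⊤ g ∧ ∀ k, π (star (g.t k)) ξ = 0

section Build

variable {A : Type} [CStarAlgebra A]

/-- the sequence of projections -/
private structure BSt {K : Type*} [NormedAddCommGroup K] [InnerProductSpace ℂ K]
    [CompleteSpace K] (π : A →⋆ₐ[ℂ] (K →L[ℂ] K)) (ξ : K) where
  p : A
  idem : p * p = p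
  sa : star p = p
  fix : π p ξ = ξ

private theorem build_next {K : Type*} [NormedAddCommGroup K] [InnerProductSpace ℂ K]
    [CompleteSpace K] {π : A →⋆ₐ[ℂ] (K →L[ℂ] K)} {ξ : K} {p s : A} (idem : p * p = p)
    (sa : star p = p) (fix : π p ξ = ξ) (h1 : star s * s = 1) (h2 : p * s = s)
    (h3 : π (star s) ξ = 0) :
    (p - s * star s) * (p - s * star s) = p - s * star s ∧
      star (p - s * star s) = p - s * star s ∧ π (p - s * star s) ξ = ξ := by
  have h4 : star s * p = star s := by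
    have := congrArg star h2
    rwa [star_mul, sa] at this
  refine ⟨?_, ?_, ?_⟩
  · have e1 : p * (s * star s) = s * star s := by rw [← mul_assoc, h2]
    have e2 : s * star s * p = s * star s := by rw [mul_assoc, h4]
    have e3 : s * star s * (s * star s) = s * star s := by
      rw [mul_assoc, ← mul_assoc (star s), h1, one_mul]
    rw [mul_sub, sub_mul, sub_mul, idem, e1, e2, e3, sub_self, sub_zero]
  · rw [star_sub, sa, star_mul, star_star]
  · rw [map_sub, map_mul]
    have e1 : (π p - π s * π (star s)) ξ = π p ξ - π s (π (star s) ξ) := rfl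
    rw [e1, fix, h3, map_zero, sub_zero]

end Build

theorem partB_of_E.{u} (hE : PartE.{u}) : PartB.{u} := by
  intro A _ hnt hPI hs hD K _ _ _ π hπ ξ hξ
  obtain ⟨D, hD1, hD2⟩ := hD
  have _ : TopologicalSpace.SeparableSpace A := ⟨D, hD1, hD2⟩
  have _ := hnt
  obtain ⟨d, hd⟩ : ∃ d : ℕ → A, DenseRange d :=
    ⟨TopologicalSpace.denseSeq A, TopologicalSpace.denseRange_denseSeq A⟩
  classical
  have hstep : ∀ (n : ℕ) (P : BSt π ξ), ∃ s : A, star s * s = 1 ∧ P.p * s = s ∧
      π (star s) ξ = 0 ∧ ∀ x ∈ (Finset.range (n + 1)).image d,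
        ‖(P.p - s * star s) * (x - (inner ℂ ξ (π x ξ) : ℂ) • (1 : A)) *
          (P.p - s * star s)‖ ≤ 1 / ((n : ℝ) + 1) := fun n P =>
    hE A hnt hPI hs K π hπ ξ hξ P.p P.idem P.sa P.fix _ _ (by positivity)
  choose s hs1 hs2 hs3 hs4 using hstep
  let nx : ∀ (n : ℕ), BSt π ξ → BSt π ξ := fun n P =>
    { p := P.p - s n P * star (s n P)
      idem := (build_next P.idem P.sa P.fix (hs1 n P) (hs2 n P) (hs3 n P)).1
      sa := (build_next P.idem P.sa P.fix (hs1 n P) (hs2 n P) (hs3 n P)).2.1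
      fix := (build_next P.idem P.sa P.fix (hs1 n P) (hs2 n P) (hs3 n P)).2.2 }
  let P0 : BSt π ξ :=
    { p := 1
      idem := one_mul 1
      sa := star_one A
      fix := by
        rw [map_one]
        rfl }
  let P : ℕ → BSt π ξ := fun n => Nat.rec P0 (fun n Q => nx n Q) n
  have hP0 : (P 0).p = 1 := rfl
  have hPs : ∀ n, (P (n + 1)).p = (P n).p - s n (P n) * star (s n (P n)) := fun n => rfl
  let t : ℕ → A := fun n => s n (P n)
  have ht1 : ∀ n, star (t n) * t n = 1 := fun n => hs1 n (P n)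
  have ht2 : ∀ n, (P n).p * t n = t n := fun n => hs2 n (P n)
  have ht2' : ∀ n, star (t n) * (P n).p = star (t n) := by
    intro n
    have h := congrArg star (ht2 n)
    rwa [star_mul, (P n).sa] at h
  have ht3 : ∀ j k, star (t j) * (P (j + 1 + k)).p = 0 := by
    intro j k
    induction k with
    | zero =>
      change star (t j) * (P (j + 1)).p = 0
      rw [hPs, mul_sub, ht2', ← mul_assoc]
      change star (t j) - star (t j) * t j * star (t j) = 0
      rw [ht1, one_mul, sub_self]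
    | succ k ih =>
      change star (t j) * (P (j + 1 + k + 1)).p = 0
      rw [hPs, mul_sub, ih, zero_sub, neg_eq_zero]
      change star (t j) * (t (j + 1 + k) * star (t (j + 1 + k))) = 0
      rw [← ht2 (j + 1 + k), ← mul_assoc, ← mul_assoc, ih, zero_mul, zero_mul]
  have horth : ∀ j k, j < k → star (t j) * t k = 0 := by
    intro j k hjk
    obtain ⟨m, rfl⟩ := Nat.exists_eq_add_of_lt hjk
    have h1 := ht3 j m
    have h2 : j + m + 1 = j + 1 + m := by omega
    rw [h2, ← ht2 (j + 1 + m), ← mul_assoc, h1, zero_mul]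
  let g : Germ A :=
    { t := t
      orth := by
        intro j k
        by_cases hjk : j = k
        · rw [if_pos hjk, hjk, ht1]
        · rw [if_neg hjk]
          rcases lt_or_gt_of_ne hjk with h | h
          · exact horth j k h
          · have h1 := congrArg star (horth k j h)
            rwa [star_mul, star_star, star_zero] at h1 }
  have hgp : ∀ n, g.p n = (P n).p := by
    intro n
    induction n with
    | zero =>
      rw [hP0]
      unfold Germ.p
      rw [Finset.sum_range_zero, sub_zero]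
    | succ n ih =>
      rw [BasicA_p_succ, ih, hPs]
  refine ⟨g, ?_, fun k => hs3 k (P k)⟩
  intro x _
  refine ⟨inner ℂ ξ (π x ξ), ?_⟩
  rw [Metric.tendsto_atTop]
  intro ε hε
  obtain ⟨y, ⟨k, rfl⟩, hk⟩ := Metric.mem_closure_iff.1 (hd x) (ε / 4) (by positivity)
  rw [dist_eq_norm] at hk
  obtain ⟨N, hN⟩ := exists_nat_one_div_lt (show 0 < ε / 4 by positivity)
  refine ⟨max N k + 1, fun n hn => ?_⟩
  rw [Real.dist_0_eq_abs, abs_norm]
  obtain ⟨m, rfl⟩ : ∃ m, n = m + 1 := ⟨n - 1, by omega⟩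
  have hm1 : N ≤ m := by
    have := le_max_left N k
    omega
  have hm2 : k ≤ m := by
    have := le_max_right N k
    omega
  have h1 := hs4 m (P m) (d k) (Finset.mem_image_of_mem d (Finset.mem_range.2 (by omega)))
  have h2 : ‖g.p (m + 1) * (d k - (inner ℂ ξ (π (d k) ξ) : ℂ) • (1 : A)) * g.p (m + 1)‖ <
      ε / 4 := by
    rw [hgp, hPs]
    refine h1.trans_lt (lt_of_le_of_lt ?_ hN)
    apply one_div_le_one_div_of_le (by positivity)
    have : (N : ℝ) ≤ m := by exact_mod_cast hm1
    linarith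
  have h3 : ‖(inner ℂ ξ (π (x - d k) ξ) : ℂ)‖ ≤ ‖x - d k‖ := by
    refine (norm_inner_le_norm _ _).trans ?_
    rw [hξ, one_mul]
    refine ((π (x - d k)).le_opNorm ξ).trans ?_
    rw [hξ, mul_one]
    exact NonUnitalStarAlgHom.norm_apply_le π _
  have hp1 : ‖g.p (m + 1)‖ ≤ 1 := g.norm_p_le _
  have h4 : g.p (m + 1) * x * g.p (m + 1) - (inner ℂ ξ (π x ξ) : ℂ) • g.p (m + 1) =
      g.p (m + 1) * (d k - (inner ℂ ξ (π (d k) ξ) : ℂ) • (1 : A)) * g.p (m + 1) +
        (g.p (m + 1) * (x - d k) * g.p (m + 1) -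
          (inner ℂ ξ (π (x - d k) ξ) : ℂ) • g.p (m + 1)) := by
    have e1 : π (x - d k) ξ = π x ξ - π (d k) ξ := by
      rw [map_sub]
      rfl
    rw [e1, inner_sub_right, sub_smul]
    simp only [mul_sub, sub_mul, mul_smul_comm, smul_mul_assoc, mul_one]
    rw [g.p_mul_p_of_le le_rfl]
    abel
  rw [h4]
  refine (norm_add_le _ _).trans_lt ?_
  have h5 : ‖g.p (m + 1) * (x - d k) * g.p (m + 1) -
      (inner ℂ ξ (π (x - d k) ξ) : ℂ) • g.p (m + 1)‖ ≤ ‖x - d k‖ + ‖x - d k‖ := by
    refine (norm_sub_le _ _).trans (add_le_add ?_ ?_)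
    · calc ‖g.p (m + 1) * (x - d k) * g.p (m + 1)‖
          ≤ ‖g.p (m + 1)‖ * ‖x - d k‖ * ‖g.p (m + 1)‖ :=
            (norm_mul_le _ _).trans (mul_le_mul_of_nonneg_right (norm_mul_le _ _) (norm_nonneg _))
        _ ≤ 1 * ‖x - d k‖ * 1 :=
            mul_le_mul (mul_le_mul_of_nonneg_right hp1 (norm_nonneg _)) hp1 (norm_nonneg _)
              (by positivity)
        _ = ‖x - d k‖ := by ring
    · rw [norm_smul]
      calc ‖(inner ℂ ξ (π (x - d k) ξ) : ℂ)‖ * ‖g.p (m + 1)‖ ≤ ‖x - d k‖ * 1 :=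
            mul_le_mul h3 hp1 (norm_nonneg _) (norm_nonneg _)
        _ = ‖x - d k‖ := mul_one _
  linarith

end P070
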