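import Vale.Agent.Lib.P070.Interface

/-!
# P070, part E, module E3: cut-off elements by continuous functional calculus

`e = star b * b`, `‖b‖ ≤ 1`, `0 < δ`. All elements are `cfc g e` with real functions of `t`
(write `M t = max t (δ / 2)`, continuous and positive everywhere, so that every function below is
continuous on all of `ℝ`):
* `g₁ t = max 0 (min 1 ((2 t - δ) / δ))` (zero for `t ≤ δ/2`, one for `t ≥ δ`),
* `q = cfc (√ g₁)`, `w = cfc (√ (1 - g₁))`, so `q q + w w = 1`;
* `g₂ t = max 0 (min 1 ((t - δ) / δ))` (zero for `t ≤ δ`, one for `t ≥ 2 δ`), `c = cfc g₂`: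
  `√g₁ g₂ = g₂`, `√(1 - g₁) g₂ = 0`, `0 ≤ t (1 - g₂ t) ≤ 2 δ` for `t ≥ 0`;
* `g₀ t = max 0 (min 1 (1 - 2 t / δ))` (zero for `t ≥ δ/2`), `k = cfc g₀`: `g₀ √g₁ = 0`;
* `m₁ = cfc (√(g₁ t) / M t)`: `m₁ e = q`, since `√g₁ t = √g₁ t / M t * t` (both sides `0` if
  `t ≤ δ/2`);
* `m₀ = cfc (fun t => (1 - g₀ t) / t-type)`: on `t ≥ 0` one has `1 - g₀ t = t / M t`; so
  `m₀ = cfc (1 / M t)` and `1 - m₀ e = k` (functions agree on the spectrum, which is nonnegative as
  `e = star b * b`).
Commutation: an element commuting with the selfadjoint `e` commutes with `cfc g e`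
(`Commute.cfc_real` / `IsSelfAdjoint.commute_cfc` or similar in Mathlib).
-/

open Filter Topology

namespace P070

namespace E

/-- clamp to the unit interval -/
private noncomputable def cut (x : ℝ) : ℝ := max 0 (min 1 x)

private theorem cut_nonneg (x : ℝ) : 0 ≤ cut x := le_max_left _ _

private theorem cut_le_one (x : ℝ) : cut x ≤ 1 := max_le zero_le_one (min_le_left _ _)

private theorem cut_of_nonpos {x : ℝ} (h : x ≤ 0) : cut x = 0 := by
  unfold cut
  rw [min_eq_right (by linarith), max_eq_left h]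

private theorem cut_of_one_le {x : ℝ} (h : 1 ≤ x) : cut x = 1 := by
  unfold cut
  rw [min_eq_left h, max_eq_right zero_le_one]

private theorem cut_of_mem {x : ℝ} (h0 : 0 ≤ x) (h : x ≤ 1) : cut x = x := by
  unfold cut
  rw [min_eq_right h, max_eq_right h0]

private theorem cut_continuous : Continuous cut := by
  unfold cut
  fun_prop

private theorem cadd {A : Type} [CStarAlgebra A] (e : A) {f g : ℝ → ℝ} (hf : Continuous f)
    (hg : Continuous g) : cfc f e + cfc g e = cfc (fun t => f t + g t) e :=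
  (cfc_add e f g hf.continuousOn hg.continuousOn).symm

private theorem cmul {A : Type} [CStarAlgebra A] (e : A) {f g : ℝ → ℝ} (hf : Continuous f)
    (hg : Continuous g) : cfc f e * cfc g e = cfc (fun t => f t * g t) e :=
  (cfc_mul f g e hf.continuousOn hg.continuousOn).symm

private theorem csub {A : Type} [CStarAlgebra A] (e : A) {f g : ℝ → ℝ} (hf : Continuous f)
    (hg : Continuous g) : cfc f e - cfc g e = cfc (fun t => f t - g t) e :=
  (cfc_sub f g e hf.continuousOn hg.continuousOn).symm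

private theorem cmulid {A : Type} [CStarAlgebra A] {e : A} (hs : IsSelfAdjoint e) {f : ℝ → ℝ}
    (hf : Continuous f) : cfc f e * e = cfc (fun t => f t * t) e := by
  conv_lhs => rw [← cfc_id' ℝ e]
  rw [cfc_id' ℝ e]
  nth_rewrite 2 [← cfc_id' ℝ e]
  exact cmul e hf continuous_id

theorem cutoffs (A : Type) [CStarAlgebra A] (b : A) (hb : ‖b‖ ≤ 1) (δ : ℝ) (hδ : 0 < δ) :
    ∃ q w c k m₀ m₁ : A, IsSelfAdjoint q ∧ IsSelfAdjoint w ∧ IsSelfAdjoint c ∧ IsSelfAdjoint k ∧
      q * q + w * w = 1 ∧ q * c = c ∧ w * c = 0 ∧ k * q = 0 ∧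
      q = m₁ * (star b * b) ∧ k = 1 - m₀ * (star b * b) ∧
      ‖star b * b - c * (star b * b)‖ ≤ 2 * δ ∧
      ∀ a : A, Commute a (star b * b) → Commute a q ∧ Commute a w ∧ Commute a c ∧ Commute a k := by
  have _ := hb
  have hspec : ∀ t ∈ spectrum ℝ (star b * b), 0 ≤ t := spectrum_star_mul_self_nonneg
  set e : A := star b * b with he
  have hs : IsSelfAdjoint e := IsSelfAdjoint.star_mul_self b
  set g1 : ℝ → ℝ := fun t => cut ((2 * t - δ) / δ) with hg1
  set g2 : ℝ → ℝ := fun t => cut ((t - δ) / δ) with hg2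
  set g0 : ℝ → ℝ := fun t => cut (1 - 2 * t / δ) with hg0
  set M : ℝ → ℝ := fun t => max t (δ / 2) with hM
  have hMpos : ∀ t, 0 < M t := fun t => lt_of_lt_of_le (by positivity) (le_max_right _ _)
  have c1 : Continuous g1 := cut_continuous.comp (by fun_prop)
  have c2 : Continuous g2 := cut_continuous.comp (by fun_prop)
  have c0 : Continuous g0 := cut_continuous.comp (by fun_prop)
  have cM : Continuous M := by
    rw [hM]
    fun_prop
  have cs1 : Continuous fun t => √(g1 t) := c1.sqrt
  have cs2 : Continuous fun t => √(1 - g1 t) := (continuous_const.sub c1).sqrt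
  have cm0 : Continuous fun t => 1 / M t := continuous_const.div cM fun t => (hMpos t).ne'
  have cm1 : Continuous fun t => √(g1 t) / M t := cs1.div cM fun t => (hMpos t).ne'
  have z1 : ∀ t, t ≤ δ / 2 → g1 t = 0 := by
    intro t ht
    exact cut_of_nonpos (div_nonpos_of_nonpos_of_nonneg (by linarith) hδ.le)
  have o1 : ∀ t, δ ≤ t → g1 t = 1 := by
    intro t ht
    exact cut_of_one_le ((le_div_iff₀ hδ).2 (by linarith))
  have z2 : ∀ t, t ≤ δ → g2 t = 0 := by
    intro t ht
    exact cut_of_nonpos (div_nonpos_of_nonpos_of_nonneg (by linarith) hδ.le)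
  have o2 : ∀ t, 2 * δ ≤ t → g2 t = 1 := by
    intro t ht
    exact cut_of_one_le ((le_div_iff₀ hδ).2 (by linarith))
  have z0 : ∀ t, δ / 2 ≤ t → g0 t = 0 := by
    intro t ht
    refine cut_of_nonpos ?_
    have : 1 ≤ 2 * t / δ := (le_div_iff₀ hδ).2 (by linarith)
    linarith
  have hid : e = cfc (fun t : ℝ => t) e := (cfc_id' ℝ e).symm
  refine ⟨cfc (fun t => √(g1 t)) e, cfc (fun t => √(1 - g1 t)) e, cfc g2 e, cfc g0 e,
    cfc (fun t => 1 / M t) e, cfc (fun t => √(g1 t) / M t) e, cfc_predicate _ _,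
    cfc_predicate _ _, cfc_predicate _ _, cfc_predicate _ _, ?_, ?_, ?_, ?_, ?_, ?_, ?_, ?_⟩
  · have cc1 : Continuous fun t => √(g1 t) * √(g1 t) := cs1.mul cs1
    have cc2 : Continuous fun t => √(1 - g1 t) * √(1 - g1 t) := cs2.mul cs2
    rw [cmul e cs1 cs1, cmul e cs2 cs2, cadd e cc1 cc2]
    have h : ∀ t, √(g1 t) * √(g1 t) + √(1 - g1 t) * √(1 - g1 t) = 1 := by
      intro t
      have h1 : g1 t ≤ 1 := cut_le_one _
      rw [Real.mul_self_sqrt (cut_nonneg _), Real.mul_self_sqrt (sub_nonneg.2 h1)]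
      change g1 t + (1 - g1 t) = 1
      ring
    rw [cfc_congr (g := fun _ => (1 : ℝ)) fun t _ => h t]
    exact cfc_const_one ℝ e
  · rw [cmul e cs1 c2]
    refine cfc_congr fun t _ => ?_
    rcases le_total t δ with h | h
    · rw [z2 t h, mul_zero]
    · rw [o1 t h, Real.sqrt_one, one_mul]
  · rw [cmul e cs2 c2, ← cfc_const_zero ℝ e]
    refine cfc_congr fun t _ => ?_
    change √(1 - g1 t) * g2 t = 0
    rcases le_total t δ with h | h
    · rw [z2 t h, mul_zero]
    · rw [o1 t h, sub_self, Real.sqrt_zero, zero_mul]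
  · rw [cmul e c0 cs1, ← cfc_const_zero ℝ e]
    refine cfc_congr fun t _ => ?_
    change g0 t * √(g1 t) = 0
    rcases le_total t (δ / 2) with h | h
    · rw [z1 t h, Real.sqrt_zero, mul_zero]
    · rw [z0 t h, zero_mul]
  · rw [cmulid hs cm1]
    refine cfc_congr fun t _ => ?_
    rcases le_total t (δ / 2) with h | h
    · rw [z1 t h, Real.sqrt_zero, zero_div, zero_mul]
    · have h1 : M t = t := max_eq_left h
      have h2 := (hMpos t).ne'
      rw [h1] at h2 ⊢
      field_simp
  · have cc : Continuous fun t => 1 / M t * t := cm0.mul continuous_id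
    rw [cmulid hs cm0, ← cfc_const_one ℝ e, csub e continuous_const cc]
    refine cfc_congr fun t ht => ?_
    change g0 t = 1 - 1 / M t * t
    have ht0 := hspec t ht
    have h2 := (hMpos t).ne'
    rcases le_total t (δ / 2) with h | h
    · have h1 : M t = δ / 2 := max_eq_right h
      have h3 : 2 * t / δ ≤ 1 := (div_le_iff₀ hδ).2 (by linarith)
      have h4 : 0 ≤ 2 * t / δ := by positivity
      have h5 : g0 t = 1 - 2 * t / δ := cut_of_mem (by linarith) (by linarith)
      rw [h5, h1]
      field_simp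
    · have h1 : M t = t := max_eq_left h
      rw [h1] at h2
      rw [z0 t h, h1, one_div_mul_cancel h2, sub_self]
  · have h1 : e - cfc g2 e * e = cfc (fun t => t - g2 t * t) e := by
      have cc : Continuous fun t => g2 t * t := c2.mul continuous_id
      have ci : Continuous fun t : ℝ => t := continuous_id
      rw [cmulid hs c2, ← csub e ci cc, ← hid]
    rw [h1]
    refine norm_cfc_le (by positivity) fun t ht => ?_
    have ht0 := hspec t ht
    have h2 := cut_nonneg ((t - δ) / δ)
    have h3 := cut_le_one ((t - δ) / δ)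
    change 0 ≤ g2 t at h2
    change g2 t ≤ 1 at h3
    rw [Real.norm_eq_abs]
    rcases le_total t (2 * δ) with h | h
    · rw [abs_of_nonneg (by nlinarith)]
      nlinarith
    · rw [o2 t h, one_mul, sub_self, abs_zero]
      positivity
  · intro a ha
    have hc : ∀ f : ℝ → ℝ, Commute a (cfc f e) := fun f => (Commute.cfc_real ha.symm f).symm
    exact ⟨hc _, hc _, hc _, hc _⟩

end E

end P070
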