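import Vale.Agent.Lib.P070.Interface

/-!
# P070, part E, module E1: excision (PROOF.md section 6 (E))

`X` finite with vanishing vector functional; there is `d = d^*`, `‖d‖ ≤ 1`, `π d ξ = 0` and
`‖(1 - d d) x (1 - d d)‖ ≤ ε` for `x ∈ X`.

Proof. For `x ∈ X` let `η = π x ξ`, `⟨ξ, η⟩ = 0`. By `PartK` there is `a` with `π a ξ = η`,
`π (star a) ξ = 0`. Put `y = x - a`, `z = star a`: `x = y + star z`, `π y ξ = 0 = π z ξ`.
Choose such `y x, z x` for every `x ∈ X` and put `h = ∑_{x ∈ X} (star y * y + star z * z) ≥ 0`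
(spectral order: `attribute [local instance] CStarAlgebra.spectralOrder
CStarAlgebra.spectralOrderedRing`), so `π h ξ = 0`. Let `r = ε ^ 2` and
`d = cfc (fun t : ℝ => √(t / (r + t))) h` (continuous on `spectrum ⊆ [0, ∞)`; one may use
`|t|` or `max t 0` in place of `t`). Then `d * d = cfc (fun t => t / (r + t)) h`,
`c = 1 - d * d = cfc (fun t => r / (r + t)) h`, `‖d‖ ≤ 1`, `‖c‖ ≤ 1`.
`d * d = cfc (fun t => 1 / (r + t)) h * h` kills `ξ`, hence
`‖π d ξ‖ ^ 2 = ⟨ξ, π (d * d) ξ⟩ = 0`.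
`‖y c‖ ^ 2 = ‖c (star y * y) c‖ ≤ ‖c h c‖ ≤ sup r² t / (r + t)² ≤ r / 4`, same for `z`;
`‖c x c‖ ≤ ‖c‖ ‖y c‖ + ‖(z c)^*‖ ‖c‖ ≤ √r = ε`.
-/

open Filter Topology

namespace P070

namespace E

attribute [local instance] CStarAlgebra.spectralOrder CStarAlgebra.spectralOrderedRing

/-- the cutoff of a positive element killing a vector -/
theorem excise_cut.{u} (A : Type) [CStarAlgebra A] (K : Type u)
    [NormedAddCommGroup K] [InnerProductSpace ℂ K] [CompleteSpace K]
    (π : A →⋆ₐ[ℂ] (K →L[ℂ] K)) (ξ : K) (h : A) (h0 : 0 ≤ h) (hh : π h ξ = 0) (ε : ℝ)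
    (hε : 0 < ε) :
    ∃ d : A, IsSelfAdjoint d ∧ ‖d‖ ≤ 1 ∧ π d ξ = 0 ∧ ‖1 - d * d‖ ≤ 1 ∧
      IsSelfAdjoint (1 - d * d) ∧ ‖(1 - d * d) * h * (1 - d * d)‖ ≤ (ε / 2) ^ 2 := by
  have hsa : IsSelfAdjoint h := IsSelfAdjoint.of_nonneg h0
  set f : ℝ → ℝ := fun t => Real.sqrt (|t| / (ε ^ 2 + |t|)) with hf
  have hpos : ∀ t : ℝ, 0 < ε ^ 2 + |t| := fun t => by positivity
  have hfc : Continuous f := by
    refine Real.continuous_sqrt.comp ?_
    exact continuous_abs.div (continuous_const.add continuous_abs) fun t => (hpos t).ne'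
  have hff : ∀ t, f t * f t = |t| / (ε ^ 2 + |t|) := fun t =>
    Real.mul_self_sqrt (by positivity)
  have hf1 : ∀ t, |t| / (ε ^ 2 + |t|) ≤ 1 := fun t => by
    rw [div_le_one (hpos t)]
    nlinarith [sq_nonneg ε]
  have hspec : ∀ t ∈ spectrum ℝ h, 0 ≤ t := fun t ht => spectrum_nonneg_of_nonneg h0 ht
  set d : A := cfc f h with hd
  have hdsa : IsSelfAdjoint d := cfc_predicate f h
  have hdd : d * d = cfc (fun t => |t| / (ε ^ 2 + |t|)) h := by
    rw [hd, ← cfc_mul f f h hfc.continuousOn hfc.continuousOn]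
    exact cfc_congr fun t _ => hff t
  have hg : Continuous fun t : ℝ => |t| / (ε ^ 2 + |t|) :=
    continuous_abs.div (continuous_const.add continuous_abs) fun t => (hpos t).ne'
  have hc : 1 - d * d = cfc (fun t => 1 - |t| / (ε ^ 2 + |t|)) h := by
    rw [hdd, cfc_sub (fun _ => (1 : ℝ)) (fun t => |t| / (ε ^ 2 + |t|)) h
      continuousOn_const hg.continuousOn, cfc_const_one ℝ h]
  have hc0 : IsSelfAdjoint (1 - d * d) := by
    rw [hc]
    exact cfc_predicate _ h
  refine ⟨d, hdsa, ?_, ?_, ?_, hc0, ?_⟩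
  · refine norm_cfc_le zero_le_one fun t _ => ?_
    rw [Real.norm_eq_abs, abs_of_nonneg (Real.sqrt_nonneg _)]
    exact Real.sqrt_le_one.2 (hf1 t)
  · have e1 : π (d * d) ξ = 0 := by
      have e2 : d * d = cfc (fun t : ℝ => 1 / (ε ^ 2 + |t|)) h * h := by
        have hg2 : Continuous fun t : ℝ => 1 / (ε ^ 2 + |t|) :=
          continuous_const.div (continuous_const.add continuous_abs) fun t => (hpos t).ne'
        have e5 := cfc_mul (fun t : ℝ => 1 / (ε ^ 2 + |t|)) (fun t => t) h hg2.continuousOn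
          continuousOn_id
        rw [cfc_id' ℝ h] at e5
        rw [← e5, hdd]
        refine cfc_congr fun t ht => ?_
        change |t| / (ε ^ 2 + |t|) = 1 / (ε ^ 2 + |t|) * t
        rw [abs_of_nonneg (hspec t ht)]
        ring
      rw [e2, map_mul]
      change π _ (π h ξ) = 0
      rw [hh, map_zero]
    have e3 : inner ℂ (π d ξ) (π d ξ) = (0 : ℂ) := by
      have e4 : ContinuousLinearMap.adjoint (π d) = π d := by
        rw [← ContinuousLinearMap.star_eq_adjoint, ← map_star, hdsa.star_eq]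
      rw [← ContinuousLinearMap.adjoint_inner_right, e4]
      have e6 : π d (π d ξ) = π (d * d) ξ := by
        rw [map_mul]
        rfl
      rw [e6, e1, inner_zero_right]
    exact inner_self_eq_zero.1 e3
  · rw [hc]
    refine norm_cfc_le zero_le_one fun t _ => ?_
    rw [Real.norm_eq_abs, abs_of_nonneg (by linarith [hf1 t])]
    have : 0 ≤ |t| / (ε ^ 2 + |t|) := by positivity
    linarith
  · have hc2 : Continuous fun t : ℝ => 1 - |t| / (ε ^ 2 + |t|) := continuous_const.sub hg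
    have e1 : (1 - d * d) * h * (1 - d * d) = cfc (fun t : ℝ =>
        (1 - |t| / (ε ^ 2 + |t|)) * t * (1 - |t| / (ε ^ 2 + |t|))) h := by
      rw [cfc_mul (fun t : ℝ => (1 - |t| / (ε ^ 2 + |t|)) * t)
        (fun t : ℝ => 1 - |t| / (ε ^ 2 + |t|)) h (hc2.mul continuous_id).continuousOn
        hc2.continuousOn, cfc_mul (fun t : ℝ => (1 - |t| / (ε ^ 2 + |t|)))
        (fun t : ℝ => t) h hc2.continuousOn continuousOn_id, cfc_id' ℝ h, ← hc]
    rw [e1]
    refine norm_cfc_le (by positivity) fun t ht => ?_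
    have ht0 := hspec t ht
    have hp := hpos t
    rw [abs_of_nonneg ht0] at hp ⊢
    have e2 : 1 - t / (ε ^ 2 + t) = ε ^ 2 / (ε ^ 2 + t) := by
      field_simp
      ring
    rw [e2, Real.norm_eq_abs, abs_of_nonneg (by positivity)]
    have e3 : ε ^ 2 / (ε ^ 2 + t) * t * (ε ^ 2 / (ε ^ 2 + t)) =
        ε ^ 2 * (ε ^ 2 * t) / (ε ^ 2 + t) ^ 2 := by
      field_simp
    rw [e3, div_le_iff₀ (by positivity)]
    nlinarith [mul_nonneg (sq_nonneg ε) (sq_nonneg (ε ^ 2 - t))]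

theorem excise.{u} (hK : PartK.{u}) (A : Type) [CStarAlgebra A] (K : Type u)
    [NormedAddCommGroup K] [InnerProductSpace ℂ K] [CompleteSpace K]
    (π : A →⋆ₐ[ℂ] (K →L[ℂ] K)) (hπ : Irr π) (ξ : K) (hξ : ‖ξ‖ = 1) (X : Finset A)
    (hX : ∀ x ∈ X, inner ℂ ξ (π x ξ) = 0) (ε : ℝ) (hε : 0 < ε) :
    ∃ d : A, IsSelfAdjoint d ∧ ‖d‖ ≤ 1 ∧ π d ξ = 0 ∧
      ∀ x ∈ X, ‖(1 - d * d) * x * (1 - d * d)‖ ≤ ε := by
  classical
  have h1 : ∀ x : A, ∃ a : A, x ∈ X → (π a ξ = π x ξ ∧ π (star a) ξ = 0) := by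
    intro x
    by_cases hx : x ∈ X
    · obtain ⟨a, ha⟩ := hK A K π hπ ξ (π x ξ) hξ (hX x hx)
      exact ⟨a, fun _ => ha⟩
    · exact ⟨0, fun h => absurd h hx⟩
  choose a ha using h1
  set h : A := ∑ x ∈ X, (star (x - a x) * (x - a x) + a x * star (a x)) with hh
  have hterm : ∀ x ∈ X, 0 ≤ star (x - a x) * (x - a x) + a x * star (a x) := fun x _ =>
    add_nonneg (star_mul_self_nonneg _) (mul_star_self_nonneg _)
  have h0 : 0 ≤ h := Finset.sum_nonneg hterm
  have hhξ : π h ξ = 0 := by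
    rw [hh, map_sum, ContinuousLinearMap.sum_apply]
    refine Finset.sum_eq_zero fun x hx => ?_
    obtain ⟨e1, e2⟩ := ha x hx
    rw [map_add, map_mul, map_mul]
    change π (star (x - a x)) (π (x - a x) ξ) + π (a x) (π (star (a x)) ξ) = 0
    have e3 : π (x - a x) ξ = 0 := by
      rw [map_sub]
      change π x ξ - π (a x) ξ = 0
      rw [e1, sub_self]
    rw [e2, e3, map_zero, map_zero, add_zero]
  obtain ⟨d, hd1, hd2, hd3, hd4, hd5, hd6⟩ := excise_cut A K π ξ h h0 hhξ ε hε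
  refine ⟨d, hd1, hd2, hd3, fun x hx => ?_⟩
  set c : A := 1 - d * d with hc
  have key : ∀ y : A, star y * y ≤ h → ‖y * c‖ ≤ ε / 2 := by
    intro y hy
    have e1 : star (y * c) * (y * c) ≤ c * h * c := by
      have e2 : star (y * c) * (y * c) = star c * (star y * y) * c := by
        rw [star_mul]
        simp only [mul_assoc]
      have e3 : c * h * c = star c * h * c := by rw [hd5.star_eq]
      rw [e2, e3]
      exact star_left_conjugate_le_conjugate hy c
    have e4 : ‖star (y * c) * (y * c)‖ ≤ ‖c * h * c‖ :=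
      CStarAlgebra.norm_le_norm_of_nonneg_of_le (star_mul_self_nonneg _) e1
    rw [CStarRing.norm_star_mul_self, ← pow_two] at e4
    exact abs_le_of_sq_le_sq' (e4.trans hd6) (by positivity) |>.2
  have hle : star (x - a x) * (x - a x) + a x * star (a x) ≤ h :=
    Finset.single_le_sum hterm hx
  have k1 : ‖(x - a x) * c‖ ≤ ε / 2 := key _
    ((le_add_of_nonneg_right (mul_star_self_nonneg _)).trans hle)
  have k2 : ‖star (a x) * c‖ ≤ ε / 2 := key _ (by
    rw [star_star]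
    exact (le_add_of_nonneg_left (star_mul_self_nonneg _)).trans hle)
  have k3 : ‖c * a x‖ ≤ ε / 2 := by
    rw [← norm_star, star_mul, hd5.star_eq]
    exact k2
  have e1 : c * x * c = c * ((x - a x) * c) + (c * a x) * c := by
    noncomm_ring
  rw [e1]
  calc ‖c * ((x - a x) * c) + (c * a x) * c‖ ≤ ‖c‖ * ‖(x - a x) * c‖ + ‖c * a x‖ * ‖c‖ :=
        (norm_add_le _ _).trans (add_le_add (norm_mul_le _ _) (norm_mul_le _ _))
    _ ≤ 1 * (ε / 2) + (ε / 2) * 1 := by
        gcongr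
    _ = ε := by ring

end E

end P070
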