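import Vale.Agent.Lib.P070.Interface

/-!
# P070, part E, module E0: an isometry whose adjoint kills a vector (PROOF.md section 6 (E0))

`A` purely infinite (`∀ y ≠ 0, ∃ x, (y x)^* (y x) = 1`) with a proper isometry; `π` irreducible,
`ζ` any vector. Then there is an isometry `r` with `π (star r) ζ = 0`.

Proof. (a) There is `y ≠ 0` with `π y ζ = 0`: if `ζ = 0` take `y = 1` (`A` is nontrivial). Else put
`ξ = ζ / ‖ζ‖`. If there is a vector `η ≠ 0` with `⟨ξ, η⟩ = 0`, `PartK` gives `b` with `π b ξ = η`,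
`π (star b) ξ = 0`; `y = star b ≠ 0` as `η ≠ 0`. If there is no such `η`, every vector is a multiple
of `ξ` (subtract the projection), so with `π s ξ = λ ξ`, `|λ| = 1` (`star s * s = 1`) we get
`π (s * star s) ξ = ξ` (`π (star s) ξ = conj λ ξ`: it is a multiple `μ ξ` and `μ λ = 1`), and
`y = 1 - s * star s ≠ 0` works.
(b) `star y ≠ 0`: PI gives `x` with `star (star y * x) * (star y * x) = 1`; `r = star y * x` is an
isometry and `π (star r) ζ = π (star x) (π y ζ) = 0`.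
-/

open Filter Topology

namespace P070

namespace E

theorem kill_y.{u} (hK : PartK.{u}) (A : Type) [CStarAlgebra A] (hn : Nontrivial A)
    (hs : ∃ s : A, star s * s = 1 ∧ s * star s ≠ 1) (K : Type u)
    [NormedAddCommGroup K] [InnerProductSpace ℂ K] [CompleteSpace K]
    (π : A →⋆ₐ[ℂ] (K →L[ℂ] K)) (hπ : Irr π) (ζ : K) :
    ∃ y : A, y ≠ 0 ∧ π y ζ = 0 := by
  by_cases hζ : ζ = 0
  · exact ⟨1, one_ne_zero, by rw [hζ, map_zero]⟩
  have hn0 : ‖ζ‖ ≠ 0 := norm_ne_zero_iff.2 hζ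
  set ξ : K := ((‖ζ‖⁻¹ : ℝ) : ℂ) • ζ with hξ
  have hξ1 : ‖ξ‖ = 1 := by
    rw [hξ, norm_smul, Complex.norm_real, Real.norm_eq_abs, abs_of_nonneg (by positivity),
      inv_mul_cancel₀ hn0]
  have hζξ : ζ = (‖ζ‖ : ℂ) • ξ := by
    rw [hξ, smul_smul, ← Complex.ofReal_mul, mul_inv_cancel₀ hn0, Complex.ofReal_one, one_smul]
  suffices h : ∃ y : A, y ≠ 0 ∧ π y ξ = 0 by
    obtain ⟨y, hy, hy0⟩ := h
    exact ⟨y, hy, by rw [hζξ, map_smul, hy0, smul_zero]⟩
  by_cases hη : ∃ η : K, η ≠ 0 ∧ inner ℂ ξ η = 0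
  · obtain ⟨η, hη0, hη⟩ := hη
    obtain ⟨b, hb1, hb2⟩ := hK A K π hπ ξ η hξ1 hη
    refine ⟨star b, fun h => hη0 ?_, hb2⟩
    have hb : b = 0 := by
      rw [← star_star b, h, star_zero]
    rw [← hb1, hb, map_zero]
    rfl
  · push Not at hη
    have hmul : ∀ v : K, v = (inner ℂ ξ v : ℂ) • ξ := by
      intro v
      by_contra hne
      have h1 : v - (inner ℂ ξ v : ℂ) • ξ ≠ 0 := sub_ne_zero.2 hne
      apply hη _ h1
      rw [inner_sub_right, inner_smul_right, inner_self_eq_norm_sq_to_K, hξ1]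
      simp
    obtain ⟨s, hs1, hs2⟩ := hs
    refine ⟨1 - s * star s, fun h => hs2 (sub_eq_zero.1 h).symm, ?_⟩
    set l : ℂ := inner ℂ ξ (π s ξ) with hl
    set m : ℂ := inner ℂ ξ (π (star s) ξ) with hm
    have e1 : π s ξ = l • ξ := hmul _
    have e2 : π (star s) ξ = m • ξ := hmul _
    have e3 : (m * l) • ξ = ξ := by
      have e4 : π (star s * s) ξ = ξ := by
        rw [hs1, map_one]
        rfl
      rw [map_mul] at e4
      change π (star s) (π s ξ) = ξ at e4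
      rw [e1, map_smul, e2, smul_smul, mul_comm] at e4
      exact e4
    rw [map_sub, map_one, map_mul]
    change ξ - π s (π (star s) ξ) = 0
    rw [e2, map_smul, e1, smul_smul, e3, sub_self]

theorem kill.{u} (hK : PartK.{u}) (A : Type) [CStarAlgebra A] (hn : Nontrivial A)
    (hPI : ∀ y : A, y ≠ 0 → ∃ x, star (y * x) * (y * x) = 1)
    (hs : ∃ s : A, star s * s = 1 ∧ s * star s ≠ 1) (K : Type u)
    [NormedAddCommGroup K] [InnerProductSpace ℂ K] [CompleteSpace K]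
    (π : A →⋆ₐ[ℂ] (K →L[ℂ] K)) (hπ : Irr π) (ζ : K) :
    ∃ r : A, star r * r = 1 ∧ π (star r) ζ = 0 := by
  obtain ⟨y, hy, hy0⟩ := kill_y hK A hn hs K π hπ ζ
  obtain ⟨x, hx⟩ := hPI (star y) (star_ne_zero.2 hy)
  refine ⟨star y * x, hx, ?_⟩
  rw [star_mul, star_star, map_mul]
  change π (star x) (π y ζ) = 0
  rw [hy0, map_zero]

end E

end P070
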