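import Vale.Agent.Lib.P070.E.Excise
import Vale.Agent.Lib.P070.E.Kill
import Vale.Agent.Lib.P070.E.Cutoffs

/-!
# P070: part E from the modules Excise, Kill, Cutoffs
-/

open Filter Topology

namespace P070

private theorem PartE_norm_proj {A : Type} [CStarAlgebra A] {p : A} (h1 : p * p = p)
    (h2 : star p = p) : ‖p‖ ≤ 1 := by
  have h := CStarRing.norm_star_mul_self (x := p)
  rw [h2, h1] at h
  by_contra hc
  push Not at hc
  nlinarith

/-- the algebraic part: from the cut-off elements to the isometry -/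
private theorem PartE_alg {A : Type} [CStarAlgebra A] {p e q w c k m₁ x r' : A}
    (hp : p * p = p) (hep : e * p = e)
    (hq : star q = q) (hw : star w = w) (hc : star c = c) (hk : star k = k)
    (hqw : q * q + w * w = 1) (hqc : q * c = c) (hwc : w * c = 0) (hkq : k * q = 0)
    (hqe : q = m₁ * e) (hpq : p * q = q * p) (hpk : p * k = k * p)
    (hr : star (k * p * x) * (k * p * x) = 1) (hr' : star r' * r' = 1) :
    star (q + k * p * x * r' * w) * (q + k * p * x * r' * w) = 1 ∧
      p * (q + k * p * x * r' * w) = q + k * p * x * r' * w ∧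
      (q + k * p * x * r' * w) * star (q + k * p * x * r' * w) * c = c ∧ p * c = c ∧
      q * (k * p * x * r') = 0 := by
  have hqp : q * p = q := by rw [hqe, mul_assoc, hep]
  have hpq' : p * q = q := by rw [hpq, hqp]
  have hqk : q * k = 0 := by
    have h := congrArg star hkq
    rwa [star_mul, hq, hk, star_zero] at h
  have hcq : c * q = c := by
    have h := congrArg star hqc
    rwa [star_mul, hq, hc] at h
  have hck : c * k = 0 := by rw [← hcq, mul_assoc, hqk, mul_zero]
  have hpc : p * c = c := by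
    calc p * c = p * (q * c) := by rw [hqc]
      _ = c := by rw [← mul_assoc, hpq', hqc]
  set t := k * p * x * r' with ht
  have hqt : q * t = 0 := by
    have : q * t = q * k * (p * x * r') := by rw [ht]; simp only [mul_assoc]
    rw [this, hqk, zero_mul]
  have hct : c * t = 0 := by
    have : c * t = c * k * (p * x * r') := by rw [ht]; simp only [mul_assoc]
    rw [this, hck, zero_mul]
  have htq : star t * q = 0 := by
    have h := congrArg star hqt
    rwa [star_mul, hq, star_zero] at h
  have htc : star t * c = 0 := by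
    have h := congrArg star hct
    rwa [star_mul, hc, star_zero] at h
  have htt : star t * t = 1 := by
    have : star t * t = star r' * (star (k * p * x) * (k * p * x)) * r' := by
      rw [ht, star_mul]
      simp only [mul_assoc]
    rw [this, hr, mul_one, hr']
  have hpt : p * t = t := by
    have : p * t = (p * k) * p * x * r' := by rw [ht]; simp only [mul_assoc]
    rw [this, hpk, mul_assoc k p p, hp]
  have hss : star (q + t * w) = q + w * star t := by
    rw [star_add, star_mul, hq, hw]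
  refine ⟨?_, ?_, ?_, hpc, hqt⟩
  · rw [hss]
    have e1 : (q + w * star t) * (q + t * w) =
        q * q + (q * t) * w + w * (star t * q) + w * (star t * t) * w := by noncomm_ring
    rw [e1, hqt, htq, htt, zero_mul, mul_zero, add_zero, add_zero, mul_one, hqw]
  · rw [mul_add, ← mul_assoc, hpq', hpt]
  · rw [hss]
    have e1 : (q + t * w) * (q + w * star t) * c =
        (q + t * w) * (q * c + w * (star t * c)) := by noncomm_ring
    rw [e1, htc, mul_zero, add_zero, hqc, add_mul, hqc, mul_assoc, hwc, mul_zero, add_zero]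

/-- the estimate -/
private theorem PartE_est {A : Type} [CStarAlgebra A] [Nontrivial A] {p s c d x : A} {ε' δ' M : ℝ}
    (hp : p * p = p) (hps : star p = p) (hs : star s * s = 1) (hpsx : p * s = s)
    (hsc : s * star s * c = c) (hpc : p * c = c)
    (hd : star d = d) (hd1 : ‖d‖ ≤ 1)
    (he : ‖p * d * d * p - c * (p * d * d * p)‖ ≤ δ' ^ 2) (hδ' : 0 ≤ δ') (hM : ‖x‖ ≤ M)
    (hx : ‖(1 - d * d) * x * (1 - d * d)‖ ≤ ε') :
    ‖(p - s * star s) * x * (p - s * star s)‖ ≤ ε' + 3 * M * δ' := by
  have hsp : star s * p = star s := by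
    have h := congrArg star hpsx
    rwa [star_mul, hps] at h
  set P := p - s * star s with hP
  have hPs : star P = P := by
    rw [hP, star_sub, star_mul, star_star, hps]
  have hPp : P * p = P := by
    rw [hP, sub_mul, hp, mul_assoc, hsp]
  have hpP : p * P = P := by
    rw [hP, mul_sub, hp, ← mul_assoc, hpsx]
  have hPP : P * P = P := by
    have e1 : P * P = P * p - (p * s - s * (star s * s)) * star s := by
      rw [hP]; noncomm_ring
    rw [e1, hPp, hs, mul_one, hpsx, sub_self, zero_mul, sub_zero]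
  have hPc : P * c = 0 := by rw [hP, sub_mul, hpc, hsc, sub_self]
  have hP1 : ‖P‖ ≤ 1 := PartE_norm_proj hPP hPs
  have hM0 : 0 ≤ M := (norm_nonneg x).trans hM
  have h1 : ‖d * P‖ ^ 2 ≤ δ' ^ 2 := by
    have h2 := CStarRing.norm_star_mul_self (x := d * P)
    rw [star_mul, hPs, hd] at h2
    have e1 : P * d * (d * P) = P * (p * d * d * p - c * (p * d * d * p)) * P := by
      have e2 : P * (p * d * d * p - c * (p * d * d * p)) * P =
          (P * p) * d * d * (p * P) - (P * c) * (p * d * d * p) * P := by noncomm_ring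
      rw [e2, hPp, hpP, hPc, zero_mul, zero_mul, sub_zero]
      simp only [mul_assoc]
    rw [e1] at h2
    rw [pow_two, ← h2]
    calc ‖P * (p * d * d * p - c * (p * d * d * p)) * P‖
        ≤ ‖P‖ * ‖p * d * d * p - c * (p * d * d * p)‖ * ‖P‖ :=
          (norm_mul_le _ _).trans (mul_le_mul_of_nonneg_right (norm_mul_le _ _) (norm_nonneg _))
      _ ≤ 1 * δ' ^ 2 * 1 := by
          refine mul_le_mul (mul_le_mul hP1 he (norm_nonneg _) zero_le_one) hP1 (norm_nonneg _)
            (by positivity)
      _ = δ' ^ 2 := by ring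
  have hdP : ‖d * P‖ ≤ δ' := abs_le_of_sq_le_sq' h1 hδ' |>.2
  have hPd : ‖P * d‖ ≤ δ' := by
    have : star (d * P) = P * d := by rw [star_mul, hPs, hd]
    rw [← this, norm_star]
    exact hdP
  have hc0 : ‖(1 : A) - d * d‖ ≤ 2 := by
    calc ‖(1 : A) - d * d‖ ≤ ‖(1 : A)‖ + ‖d * d‖ := norm_sub_le _ _
      _ ≤ 1 + 1 := by
          refine add_le_add (CStarRing.norm_one).le ((norm_mul_le _ _).trans ?_)
          exact mul_le_one₀ hd1 (norm_nonneg _) hd1
      _ = 2 := by norm_num
  have e3 : P * x * P = P * ((1 - d * d) * x * (1 - d * d)) * P + (P * d) * d * x * P +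
      P * (1 - d * d) * x * d * (d * P) := by noncomm_ring
  rw [e3]
  have n1 : ‖P * ((1 - d * d) * x * (1 - d * d)) * P‖ ≤ ε' := by
    calc ‖P * ((1 - d * d) * x * (1 - d * d)) * P‖
        ≤ ‖P‖ * ‖(1 - d * d) * x * (1 - d * d)‖ * ‖P‖ :=
          (norm_mul_le _ _).trans (mul_le_mul_of_nonneg_right (norm_mul_le _ _) (norm_nonneg _))
      _ ≤ 1 * ε' * 1 := by
          have : 0 ≤ ε' := (norm_nonneg _).trans hx
          exact mul_le_mul (mul_le_mul hP1 hx (norm_nonneg _) zero_le_one) hP1 (norm_nonneg _)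
            (by positivity)
      _ = ε' := by ring
  have n2 : ‖(P * d) * d * x * P‖ ≤ δ' * M := by
    calc ‖(P * d) * d * x * P‖ ≤ ‖P * d‖ * ‖d‖ * ‖x‖ * ‖P‖ := by
          refine (norm_mul_le _ _).trans (mul_le_mul_of_nonneg_right ?_ (norm_nonneg _))
          refine (norm_mul_le _ _).trans (mul_le_mul_of_nonneg_right ?_ (norm_nonneg _))
          exact norm_mul_le _ _
      _ ≤ δ' * 1 * M * 1 := by
          refine mul_le_mul ?_ hP1 (norm_nonneg _) (by positivity)
          refine mul_le_mul ?_ hM (norm_nonneg _) (by positivity)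
          exact mul_le_mul hPd hd1 (norm_nonneg _) hδ'
      _ = δ' * M := by ring
  have n3 : ‖P * (1 - d * d) * x * d * (d * P)‖ ≤ 2 * M * δ' := by
    calc ‖P * (1 - d * d) * x * d * (d * P)‖ ≤ ‖P‖ * ‖(1 : A) - d * d‖ * ‖x‖ * ‖d‖ * ‖d * P‖ := by
          refine (norm_mul_le _ _).trans (mul_le_mul_of_nonneg_right ?_ (norm_nonneg _))
          refine (norm_mul_le _ _).trans (mul_le_mul_of_nonneg_right ?_ (norm_nonneg _))
          refine (norm_mul_le _ _).trans (mul_le_mul_of_nonneg_right ?_ (norm_nonneg _))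
          exact norm_mul_le _ _
      _ ≤ 1 * 2 * M * 1 * δ' := by
          refine mul_le_mul ?_ hdP (norm_nonneg _) (by positivity)
          refine mul_le_mul ?_ hd1 (norm_nonneg _) (by positivity)
          refine mul_le_mul ?_ hM (norm_nonneg _) (by positivity)
          exact mul_le_mul hP1 hc0 (norm_nonneg _) zero_le_one
      _ = 2 * M * δ' := by ring
  calc _ ≤ ‖P * ((1 - d * d) * x * (1 - d * d)) * P‖ + ‖(P * d) * d * x * P‖ +
        ‖P * (1 - d * d) * x * d * (d * P)‖ := norm_add₃_le
    _ ≤ ε' + δ' * M + 2 * M * δ' := add_le_add (add_le_add n1 n2) n3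
    _ = ε' + 3 * M * δ' := by ring

theorem partE_of_K.{u} (hK : PartK.{u}) : PartE.{u} := by
  classical
  intro A _ hnt hPI hprop K _ _ _ π hπ ξ hξ p hpp hps hpξ X ε hε
  set F : A → ℂ := fun x => inner ℂ ξ (π x ξ) with hF
  set X' : Finset A := X.image fun x => x - F x • (1 : A) with hX'
  have hX0 : ∀ x ∈ X', inner ℂ ξ (π x ξ) = 0 := by
    intro x hx
    obtain ⟨y, -, rfl⟩ := Finset.mem_image.1 hx
    rw [map_sub, map_smul, map_one, sub_apply,
      smul_apply, inner_sub_right, inner_smul_right]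
    change F y - F y * inner ℂ ξ ξ = 0
    rw [inner_self_eq_norm_sq_to_K, hξ]
    simp
  obtain ⟨d, hd, hd1, hdξ, hdX⟩ := E.excise hK A K π hπ ξ hξ X' hX0 (ε / 2) (by positivity)
  set M : ℝ := 1 + ∑ x ∈ X', ‖x‖ with hM
  have hM1 : 1 ≤ M := by
    rw [hM]
    exact le_add_of_nonneg_right (Finset.sum_nonneg fun _ _ => norm_nonneg _)
  have hMx : ∀ x ∈ X', ‖x‖ ≤ M := by
    intro x hx
    have h1 : ‖x‖ ≤ ∑ x ∈ X', ‖x‖ :=
      Finset.single_le_sum (f := fun x : A => ‖x‖) (fun _ _ => norm_nonneg _) hx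
    rw [hM]
    linarith
  set δ' : ℝ := ε / (6 * M) with hδ'
  have hδ'0 : 0 < δ' := by positivity
  have hpn : ‖p‖ ≤ 1 := PartE_norm_proj hpp hps
  have hb : ‖d * p‖ ≤ 1 := (norm_mul_le _ _).trans (mul_le_one₀ hd1 (norm_nonneg _) hpn)
  obtain ⟨q, w, c, k, m₀, m₁, hq, hw, hc, hk, hqw, hqc, hwc, hkq, hqe, hke, hece, hcomm⟩ :=
    E.cutoffs A (d * p) hb (δ' ^ 2 / 2) (by positivity)
  set e : A := star (d * p) * (d * p) with he
  have he' : e = p * d * d * p := by
    rw [he, star_mul, hd.star_eq, hps]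
    simp only [mul_assoc]
  have hpe : p * e = e := by
    rw [he']
    simp only [← mul_assoc]
    rw [hpp]
  have hep : e * p = e := by
    rw [he', mul_assoc, hpp]
  have hce : Commute p e := by
    change p * e = e * p
    rw [hpe, hep]
  have heξ : π e ξ = 0 := by
    rw [he', map_mul, map_mul, mul_apply_eq_comp, mul_apply_eq_comp, hpξ,
      hdξ, map_zero]
  obtain ⟨hpq, -, -, hpk⟩ := hcomm p hce
  have hkξ : π k ξ = ξ := by
    rw [hke, map_sub, map_one, map_mul, sub_apply,
      mul_apply_eq_comp, heξ, map_zero, sub_zero, one_apply_eq_self]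
  have hqξ : π q ξ = 0 := by
    rw [hqe, map_mul, mul_apply_eq_comp, heξ, map_zero]
  have hkp : k * p ≠ 0 := by
    intro h0
    have h1 : π (k * p) ξ = ξ := by
      rw [map_mul, mul_apply_eq_comp, hpξ, hkξ]
    rw [h0, map_zero, zero_apply] at h1
    rw [← h1, norm_zero] at hξ
    exact zero_ne_one hξ
  obtain ⟨x, hx⟩ := hPI (k * p) hkp
  obtain ⟨r', hr', hr'ζ⟩ := E.kill hK A hnt hPI hprop K π hπ (π (star (k * p * x)) ξ)
  obtain ⟨a1, a2, a3, a4, -⟩ := PartE_alg hpp hep hq.star_eq hw.star_eq hc.star_eq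
    hk.star_eq hqw hqc hwc hkq hqe hpq hpk hx hr'
  refine ⟨q + k * p * x * r' * w, a1, a2, ?_, ?_⟩
  · have h1 : star (q + k * p * x * r' * w) = q + w * (star r' * star (k * p * x)) := by
      rw [star_add, star_mul, star_mul, hq.star_eq, hw.star_eq]
    rw [h1, map_add, add_apply, hqξ, zero_add, map_mul, map_mul,
      mul_apply_eq_comp, mul_apply_eq_comp, hr'ζ, map_zero]
  · intro y hy
    have hy' : y - F y • (1 : A) ∈ X' := Finset.mem_image_of_mem _ hy
    have hee : ‖p * d * d * p - c * (p * d * d * p)‖ ≤ δ' ^ 2 := by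
      rw [← he']
      refine hece.trans (le_of_eq ?_)
      ring
    have h1 := PartE_est (x := y - F y • (1 : A)) hpp hps a1 a2 a3 a4 hd.star_eq hd1
      hee hδ'0.le (hMx _ hy') (hdX _ hy')
    refine h1.trans (le_of_eq ?_)
    rw [hδ']
    field_simp
    norm_num

end P070
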